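import Mathlib

/-!
# Statement-level definitions for P238: edit distance on binary words
-/

namespace Vale.Agent.H64.Edit

/-- One edit operation on binary words: `y` arises from `x` by deleting one symbol, by inserting
one symbol, or by substituting one symbol. -/
def Step (x y : List Bool) : Prop :=
  ∃ (u v : List Bool) (a b : Bool),
    (x = u ++ a :: v ∧ y = u ++ v) ∨ (x = u ++ v ∧ y = u ++ a :: v) ∨
      (x = u ++ a :: v ∧ y = u ++ b :: v)

/-- `x` can be transformed into `y` by exactly `k` successive edit operations. -/
def Reach : ℕ → List Bool → List Bool → Prop
  | 0, x, y => x = y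
  | k + 1, x, y => ∃ z, Step x z ∧ Reach k z y

/-- The edit distance `ED(x, y)`: the least number of single-symbol insertions, deletions and
substitutions transforming `x` into `y`. -/
noncomputable def ED (x y : List Bool) : ℕ := sInf {k | Reach k x y}

end Vale.Agent.H64.Edit
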