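import Vale.Agent.H64.Edit.Xor

/-!
# The coordinate embedding of the binary cube into `ℓ_1^n` versus the edit distance

For words of length `n = 2 m ≥ 2` the coordinate embedding `x ↦ (x_1, …, x_n) ∈ ℓ_1^n` (whose
induced distance is the Hamming distance) satisfies `ED ≤ d ≤ m · ED` and is invariant under
XOR-translations.
-/

namespace Vale.Agent.H64.Edit

/-- The Hamming distance of two binary words (of equal length). -/
def ham : List Bool → List Bool → ℕ
  | a :: x, b :: y => (if a = b then 0 else 1) + ham x y
  | _, _ => 0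

theorem ham_self : ∀ x : List Bool, ham x x = 0
  | [] => rfl
  | a :: x => by simp [ham, ham_self x]

theorem ham_le_length : ∀ x y : List Bool, ham x y ≤ x.length
  | [], _ => by simp [ham]
  | _ :: _, [] => by simp [ham]
  | a :: x, b :: y => by
    have := ham_le_length x y
    simp only [ham, List.length_cons]
    split_ifs <;> omega

theorem ham_subst : ∀ (u v : List Bool) (a b : Bool), ham (u ++ a :: v) (u ++ b :: v) ≤ 1
  | [], v, a, b => by
    simp only [List.nil_append, ham, ham_self]
    split_ifs <;> omega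
  | c :: u, v, a, b => by
    have := ham_subst u v a b
    simpa [ham] using this

theorem Step.cons (c : Bool) {x y : List Bool} (h : Step x y) : Step (c :: x) (c :: y) := by
  obtain ⟨u, v, a, b, h | h | h⟩ := h
  · obtain ⟨rfl, rfl⟩ := h
    exact ⟨c :: u, v, a, b, Or.inl ⟨rfl, rfl⟩⟩
  · obtain ⟨rfl, rfl⟩ := h
    exact ⟨c :: u, v, a, b, Or.inr (Or.inl ⟨rfl, rfl⟩)⟩
  · obtain ⟨rfl, rfl⟩ := h
    exact ⟨c :: u, v, a, b, Or.inr (Or.inr ⟨rfl, rfl⟩)⟩

theorem Reach.cons (c : Bool) : ∀ (k : ℕ) {x y : List Bool}, Reach k x y →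
    Reach k (c :: x) (c :: y)
  | 0, x, y, h => by
    have hxy : x = y := h
    subst hxy
    exact rfl
  | k + 1, x, y, h => by
    obtain ⟨z, hxz, hzy⟩ := h
    exact ⟨c :: z, hxz.cons c, Reach.cons c k hzy⟩

theorem reach_ham : ∀ x y : List Bool, x.length = y.length → Reach (ham x y) x y
  | [], [], _ => rfl
  | [], _ :: _, h => by simp at h
  | _ :: _, [], h => by simp at h
  | a :: x, b :: y, h => by
    have hl : x.length = y.length := by simpa using h
    have ih := reach_ham x y hl
    by_cases hab : a = b
    · subst hab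
      simpa [ham] using Reach.cons a _ ih
    · have h1 : Step (a :: x) (b :: x) := ⟨[], x, a, b, Or.inr (Or.inr ⟨rfl, rfl⟩)⟩
      have h2 : Reach (ham x y + 1) (a :: x) (b :: y) := by
        have := Reach.trans 1 (ham x y) (show Reach 1 (a :: x) (b :: x) from ⟨_, h1, rfl⟩)
          (Reach.cons b _ ih)
        rwa [Nat.add_comm] at this
      simpa [ham, hab, Nat.add_comm] using h2

theorem ED_le_ham (x y : List Bool) (h : x.length = y.length) : ED x y ≤ ham x y :=
  ED_le (reach_ham x y h)

theorem reach_ED (x y : List Bool) : Reach (ED x y) x y :=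
  Nat.sInf_mem (reach_exists x y)

theorem ham_le_mul_ED (m : ℕ) (hm : 1 ≤ m) (x y : List Bool) (hx : x.length = 2 * m)
    (hy : y.length = 2 * m) : ham x y ≤ m * ED x y := by
  have hr := reach_ED x y
  rcases hk : ED x y with _ | _ | k
  · rw [hk] at hr
    have hxy : x = y := hr
    subst hxy
    simp [ham_self]
  · rw [hk] at hr
    obtain ⟨z, hxz, hzy⟩ := hr
    have hzy' : z = y := hzy
    subst hzy'
    obtain ⟨u, v, a, b, h | h | h⟩ := hxz
    · obtain ⟨rfl, rfl⟩ := h
      simp at hx hy
      omega
    · obtain ⟨rfl, rfl⟩ := h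
      simp at hx hy
      omega
    · obtain ⟨rfl, rfl⟩ := h
      have := ham_subst u v a b
      omega
  · have := ham_le_length x y
    have h2 : 2 * m ≤ m * (k + 1 + 1) := by nlinarith
    omega

theorem ham_xor : ∀ x y z : List Bool, x.length = z.length → y.length = z.length →
    ham (List.zipWith xor x z) (List.zipWith xor y z) = ham x y
  | [], [], _, _, _ => by simp [ham]
  | [], _ :: _, [], _, h => by simp at h
  | [], _ :: _, _ :: _, h, _ => by simp at h
  | _ :: _, [], [], h, _ => by simp at h
  | _ :: _, [], _ :: _, _, h => by simp at h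
  | _ :: _, _ :: _, [], h, _ => by simp at h
  | a :: x, b :: y, c :: z, h1, h2 => by
    have ih := ham_xor x y z (by simpa using h1) (by simpa using h2)
    simp only [List.zipWith_cons_cons, ham, ih]
    cases a <;> cases b <;> cases c <;> simp

/-- The real number `0` or `1` of a bit. -/
def bit (b : Bool) : ℝ := if b then 1 else 0

/-- The coordinate embedding of binary words into `ℓ_1^n`. -/
noncomputable def coord (n : ℕ) (x : List Bool) : PiLp 1 (fun _ : Fin n => ℝ) :=
  WithLp.toLp 1 (fun i : Fin n => bit (x.getD i false))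

theorem dist_bit (a b : Bool) : dist (bit a) (bit b) = if a = b then 0 else 1 := by
  cases a <;> cases b <;> simp [bit, Real.dist_eq]

theorem sum_dist_eq_ham : ∀ (n : ℕ) (x y : List Bool), x.length = n → y.length = n →
    ∑ i : Fin n, dist (bit (x.getD i false)) (bit (y.getD i false)) = (ham x y : ℝ)
  | 0, [], [], _, _ => by simp [ham]
  | 0, _ :: _, _, h, _ => by simp at h
  | 0, [], _ :: _, _, h => by simp at h
  | n + 1, [], _, h, _ => by simp at h
  | n + 1, _ :: _, [], _, h => by simp at h
  | n + 1, a :: x, b :: y, h1, h2 => by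
    have ih := sum_dist_eq_ham n x y (by simpa using h1) (by simpa using h2)
    rw [Fin.sum_univ_succ]
    simp only [Fin.val_zero, List.getD_cons_zero, Fin.val_succ, List.getD_cons_succ]
    rw [ih, dist_bit]
    simp only [ham]
    push_cast
    split_ifs <;> simp

theorem dist_coord (n : ℕ) (x y : List Bool) (hx : x.length = n) (hy : y.length = n) :
    dist (coord n x) (coord n y) = (ham x y : ℝ) := by
  rw [PiLp.dist_eq_of_L1]
  exact sum_dist_eq_ham n x y hx hy

/-- The coordinate embedding has distortion at most `m` on words of length `2 m` and induces an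
XOR-invariant distance. -/
theorem coord_sharp (m : ℕ) (hm : 1 ≤ m) :
    (∀ x y : List Bool, x.length = 2 * m → y.length = 2 * m →
      (ED x y : ℝ) ≤ dist (coord (2 * m) x) (coord (2 * m) y) ∧
        dist (coord (2 * m) x) (coord (2 * m) y) ≤ m * (ED x y : ℝ)) ∧
    ∀ x y z : List Bool, x.length = 2 * m → y.length = 2 * m → z.length = 2 * m →
      dist (coord (2 * m) (List.zipWith xor x z)) (coord (2 * m) (List.zipWith xor y z)) =
        dist (coord (2 * m) x) (coord (2 * m) y) := by
  refine ⟨fun x y hx hy => ?_, fun x y z hx hy hz => ?_⟩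
  · rw [dist_coord _ x y hx hy]
    refine ⟨?_, ?_⟩
    · exact_mod_cast ED_le_ham x y (hx.trans hy.symm)
    · exact_mod_cast ham_le_mul_ED m hm x y hx hy
  · rw [dist_coord _ x y hx hy, dist_coord _ _ _ (by simp [hx, hz]) (by simp [hy, hz]),
      ham_xor x y z (hx.trans hz.symm) (hy.trans hz.symm)]

end Vale.Agent.H64.Edit
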