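import Vale.Agent.H64.Edit.Defs

/-!
# Embeddings of the edit distance that are invariant under XOR-translations

If the distance induced by a map `f` on binary words of length `2 m` is invariant under
`x ↦ x ⊕ z`, then `f` has distortion at least `m` with respect to the edit distance:
`ED(0101…, 1010…) ≤ 2` while `ED(00…0, 11…1) = 2 m`, and the two pairs differ by an
XOR-translation.
-/

namespace Vale.Agent.H64.Edit

theorem Reach.step_right : ∀ (k : ℕ) {x z y : List Bool}, Reach k x z → Step z y →
    Reach (k + 1) x y
  | 0, x, z, y, h, hs => by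
    have hxz : x = z := h
    subst hxz
    exact ⟨y, hs, rfl⟩
  | k + 1, x, z, y, h, hs => by
    obtain ⟨w, hxw, hwz⟩ := h
    exact ⟨w, hxw, Reach.step_right k hwz hs⟩

theorem Reach.trans : ∀ (j k : ℕ) {x z y : List Bool}, Reach j x z → Reach k z y →
    Reach (j + k) x y
  | 0, k, x, z, y, h, h2 => by
    have hxz : x = z := h
    subst hxz
    rw [Nat.zero_add]
    exact h2
  | j + 1, k, x, z, y, h, h2 => by
    obtain ⟨w, hxw, hwz⟩ := h
    have := Reach.trans j k hwz h2
    rw [Nat.add_right_comm]
    exact ⟨w, hxw, this⟩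

theorem step_delete_head (a : Bool) (w : List Bool) : Step (a :: w) w :=
  ⟨[], w, a, a, Or.inl ⟨rfl, rfl⟩⟩

theorem step_insert_head (a : Bool) (w : List Bool) : Step w (a :: w) :=
  ⟨[], w, a, a, Or.inr (Or.inl ⟨rfl, rfl⟩)⟩

theorem step_insert_last (a : Bool) (w : List Bool) : Step w (w ++ [a]) :=
  ⟨w, [], a, a, Or.inr (Or.inl ⟨(List.append_nil w).symm, rfl⟩)⟩

theorem reach_to_nil : ∀ x : List Bool, Reach x.length x []
  | [] => rfl
  | a :: w => ⟨w, step_delete_head a w, reach_to_nil w⟩

theorem reach_from_nil : ∀ y : List Bool, Reach y.length [] y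
  | [] => rfl
  | a :: w => Reach.step_right _ (reach_from_nil w) (step_insert_head a w)

theorem reach_exists (x y : List Bool) : ∃ k, Reach k x y :=
  ⟨_, Reach.trans _ _ (reach_to_nil x) (reach_from_nil y)⟩

theorem ED_le {k : ℕ} {x y : List Bool} (h : Reach k x y) : ED x y ≤ k :=
  Nat.sInf_le h

theorem le_ED {n : ℕ} {x y : List Bool} (h : ∀ k, Reach k x y → n ≤ k) : n ≤ ED x y :=
  le_csInf (reach_exists x y) h

theorem Step.count_le {x y : List Bool} (h : Step x y) :
    y.count true ≤ x.count true + 1 := by
  obtain ⟨u, v, a, b, h | h | h⟩ := h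
  · obtain ⟨rfl, rfl⟩ := h
    simp only [List.count_append, List.count_cons]
    omega
  · obtain ⟨rfl, rfl⟩ := h
    simp only [List.count_append, List.count_cons]
    split_ifs <;> omega
  · obtain ⟨rfl, rfl⟩ := h
    simp only [List.count_append, List.count_cons]
    split_ifs <;> omega

theorem Reach.count_le : ∀ (k : ℕ) {x y : List Bool}, Reach k x y →
    y.count true ≤ x.count true + k
  | 0, x, y, h => by
    have hxy : x = y := h
    subst hxy
    exact Nat.le_refl _
  | k + 1, x, y, h => by
    obtain ⟨z, hxz, hzy⟩ := h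
    have h1 := hxz.count_le
    have h2 := Reach.count_le k hzy
    omega

/-- The word `0101…01` of length `2 m`. -/
def alt : ℕ → List Bool
  | 0 => []
  | m + 1 => false :: true :: alt m

/-- The word `1010…10` of length `2 m`. -/
def alt' : ℕ → List Bool
  | 0 => []
  | m + 1 => true :: false :: alt' m

theorem length_alt : ∀ m, (alt m).length = 2 * m
  | 0 => rfl
  | m + 1 => by simp [alt, length_alt m]; omega

theorem length_alt' : ∀ m, (alt' m).length = 2 * m
  | 0 => rfl
  | m + 1 => by simp [alt', length_alt' m]; omega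

theorem alt_shift : ∀ m, false :: alt' m = alt m ++ [false]
  | 0 => rfl
  | m + 1 => by
    show false :: true :: false :: alt' m = false :: true :: (alt m ++ [false])
    rw [alt_shift m]

theorem reach_alt (m : ℕ) : Reach 2 (alt (m + 1)) (alt' (m + 1)) := by
  refine ⟨true :: alt m, step_delete_head false _, true :: alt m ++ [false], ?_, ?_⟩
  · exact step_insert_last false _
  · show true :: alt m ++ [false] = true :: false :: alt' m
    rw [alt_shift m]
    rfl

theorem xor_alt : ∀ m, List.zipWith xor (alt m) (alt' m) = List.replicate (2 * m) true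
  | 0 => rfl
  | m + 1 => by
    show xor false true :: xor true false :: List.zipWith xor (alt m) (alt' m) = _
    rw [xor_alt m]
    rfl

theorem xor_self_list : ∀ x : List Bool, List.zipWith xor x x = List.replicate x.length false
  | [] => rfl
  | a :: w => by
    show xor a a :: List.zipWith xor w w = _
    rw [xor_self_list w]
    simp [List.replicate_succ]

/-- **Embeddings that are `K`-quasi-invariant under XOR-translations have distortion at least
`n / (2 K)`.** -/
theorem xor_quasi_invariant_distortion (m : ℕ) (hm : 1 ≤ m) {M : Type*} [PseudoMetricSpace M]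
    (f : List Bool → M) (a b K : ℝ) (hK : 0 ≤ K)
    (hab : ∀ x y : List Bool, x.length = 2 * m → y.length = 2 * m →
      a * (ED x y : ℝ) ≤ dist (f x) (f y) ∧ dist (f x) (f y) ≤ b * (ED x y : ℝ))
    (hinv : ∀ x y z : List Bool, x.length = 2 * m → y.length = 2 * m → z.length = 2 * m →
      dist (f (List.zipWith xor x z)) (f (List.zipWith xor y z)) ≤ K * dist (f x) (f y)) :
    a * m ≤ K * b := by
  obtain ⟨k, rfl⟩ : ∃ k, m = k + 1 := ⟨m - 1, by omega⟩
  set x0 := alt (k + 1) with hx0
  set y0 := alt' (k + 1) with hy0
  have lx : x0.length = 2 * (k + 1) := length_alt _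
  have ly : y0.length = 2 * (k + 1) := length_alt' _
  -- the translated pair
  have h1 := hinv x0 y0 x0 lx ly lx
  rw [xor_self_list, lx] at h1
  have hyx : List.zipWith xor y0 x0 = List.replicate (2 * (k + 1)) true := by
    rw [← xor_alt (k + 1)]
    -- zipWith xor is commutative
    exact List.zipWith_comm_of_comm (fun a b => Bool.xor_comm a b)
  rw [hyx] at h1
  -- the short pair
  have hshort : (ED x0 y0 : ℝ) ≤ 2 := by
    exact_mod_cast ED_le (reach_alt k)
  -- the long pair
  have hlong : ((2 * (k + 1) : ℕ) : ℝ) ≤
      (ED (List.replicate (2 * (k + 1)) false) (List.replicate (2 * (k + 1)) true) : ℝ) := by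
    have : 2 * (k + 1) ≤
        ED (List.replicate (2 * (k + 1)) false) (List.replicate (2 * (k + 1)) true) := by
      apply le_ED
      intro j hj
      have := Reach.count_le j hj
      simp only [List.count_replicate_self] at this
      have h0 : (List.replicate (2 * (k + 1)) false).count true = 0 := by
        simp [List.count_replicate]
      omega
    exact_mod_cast this
  have hA := (hab (List.replicate (2 * (k + 1)) false) (List.replicate (2 * (k + 1)) true)
    (by simp) (by simp)).1
  have hB := (hab x0 y0 lx ly).2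
  have hd : 0 ≤ dist (f x0) (f y0) := dist_nonneg
  -- the short pair is a pair of different words
  have hpos : (1 : ℝ) ≤ (ED x0 y0 : ℝ) := by
    have : 1 ≤ ED x0 y0 := by
      apply le_ED
      intro j hj
      rcases j with _ | j
      · have hxy : x0 = y0 := hj
        simp [hx0, hy0, alt, alt'] at hxy
      · omega
    exact_mod_cast this
  have hb : 0 ≤ b := by
    by_contra hb
    push Not at hb
    nlinarith
  have hk : (0 : ℝ) ≤ ((k + 1 : ℕ) : ℝ) := Nat.cast_nonneg _
  have hKb : 0 ≤ K * b := mul_nonneg hK hb
  by_cases ha : 0 ≤ a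
  · have e1 : a * ((2 * (k + 1) : ℕ) : ℝ) ≤ K * dist (f x0) (f y0) :=
      le_trans (le_trans (mul_le_mul_of_nonneg_left hlong ha) hA) h1
    have e2 : dist (f x0) (f y0) ≤ b * 2 := le_trans hB (mul_le_mul_of_nonneg_left hshort hb)
    have e3 : K * dist (f x0) (f y0) ≤ K * (b * 2) := mul_le_mul_of_nonneg_left e2 hK
    push_cast at e1 hk ⊢
    nlinarith
  · push Not at ha
    have : a * ((k + 1 : ℕ) : ℝ) ≤ 0 := mul_nonpos_of_nonpos_of_nonneg ha.le hk
    linarith

/-- **XOR-invariant embeddings have distortion at least `n / 2`.** -/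
theorem xor_invariant_distortion (m : ℕ) (hm : 1 ≤ m) {M : Type*} [PseudoMetricSpace M]
    (f : List Bool → M) (a b : ℝ)
    (hab : ∀ x y : List Bool, x.length = 2 * m → y.length = 2 * m →
      a * (ED x y : ℝ) ≤ dist (f x) (f y) ∧ dist (f x) (f y) ≤ b * (ED x y : ℝ))
    (hinv : ∀ x y z : List Bool, x.length = 2 * m → y.length = 2 * m → z.length = 2 * m →
      dist (f (List.zipWith xor x z)) (f (List.zipWith xor y z)) = dist (f x) (f y)) :
    a * m ≤ b := by
  have := xor_quasi_invariant_distortion m hm f a b 1 zero_le_one hab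
    (fun x y z hx hy hz => by rw [one_mul]; exact (hinv x y z hx hy hz).le)
  rwa [one_mul] at this

end Vale.Agent.H64.Edit
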